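import Mathlib

namespace Vale.Agent.P042

def Good (q n H : ℕ) : Prop := ∃ (ι : Type) (_ : Fintype ι) (x : ι → ℤ) (φ : ι → ℕ),
  Fintype.card ι = n ∧ (∀ i, φ i < H) ∧
    ∀ i j, i ≠ j → ∀ z : ℤ, (q : ℤ) ∣ x i - x j - z ^ 2 → φ i < φ j

lemma Good.mono {q n H H' : ℕ} (h : Good q n H) (k : H ≤ H') : Good q n H' := by
  obtain ⟨ι, _, x, φ, h1, h2, h3⟩ := h
  exact ⟨ι, _, x, φ, h1, fun i => (h2 i).trans_le k, h3⟩

lemma base (p t : ℕ) [NeZero p] (x : Fin t → ℕ)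
    (h : ∀ i j, i ≠ j → ∀ z : ZMod p, (x i : ZMod p) - x j - z ^ 2 = 0 → i < j) : Good p t t :=
  ⟨Fin t, inferInstance, fun i => x i, fun i => i, by simp, fun i => i.2, fun i j e z hz =>
    h i j e z (by have := (ZMod.intCast_zmod_eq_zero_iff_dvd _ p).mpr hz; push_cast at this; exact this)⟩

lemma Good.prod {q n H q' n' H' : ℕ} (h : Good q n H) (h' : Good q' n' H') (hc : q.Coprime q') :
    Good (q * q') (n * n') (H + H') := by
  obtain ⟨ι, _, x, φ, h1, h2, h3⟩ := h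
  obtain ⟨κ, _, y, ψ, k1, k2, k3⟩ := h'
  obtain ⟨u, v, e⟩ := Nat.isCoprime_iff_coprime.mpr hc
  refine ⟨ι × κ, inferInstance, fun a => x a.1 * (v * q') + y a.2 * (u * q), fun a => φ a.1 + ψ a.2,
    by simp [h1, k1], fun a => add_lt_add (h2 _) (k2 _), fun a b hab z hz => ?_⟩
  obtain ⟨c, hc⟩ := hz
  push_cast at hc
  have d1 : (q : ℤ) ∣ x a.1 - x b.1 - z ^ 2 :=
    ⟨q' * c + u * (x a.1 - x b.1) - u * (y a.2 - y b.2), by
      linear_combination hc - (x a.1 - x b.1) * e⟩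
  have d2 : (q' : ℤ) ∣ y a.2 - y b.2 - z ^ 2 :=
    ⟨q * c + v * (y a.2 - y b.2) - v * (x a.1 - x b.1), by
      linear_combination hc - (y a.2 - y b.2) * e⟩
  by_cases e1 : a.1 = b.1
  · have e2 : a.2 ≠ b.2 := fun e2 => hab (Prod.ext e1 e2)
    have := k3 _ _ e2 z d2
    simp only [e1]; omega
  · have := h3 _ _ e1 z d1
    by_cases e2 : a.2 = b.2
    · simp only [e2]; omega
    · have := k3 _ _ e2 z d2
      simp only; omega

lemma Good.pow {p t : ℕ} (hp : p.Prime) (h : Good p t t) (k : ℕ) :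
    Good (p ^ (2 * k)) ((p * t) ^ k) (t ^ k) := by
  induction k with
  | zero => exact ⟨Unit, inferInstance, fun _ => 0, fun _ => 0, by simp, by simp, by simp⟩
  | succ k ih =>
    obtain ⟨ι, _, x, φ, h1, h2, h3⟩ := h
    obtain ⟨κ, _, y, ψ, k1, k2, k3⟩ := ih
    have hp' : Prime (p : ℤ) := Nat.prime_iff_prime_int.mp hp
    refine ⟨ι × Fin p × κ, inferInstance, fun a => x a.1 + p * (a.2.1 : ℕ) + p ^ 2 * y a.2.2,
      fun a => φ a.1 * t ^ k + ψ a.2.2, by simp [h1, k1]; ring, fun a => ?_, fun a b hab z hz => ?_⟩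
    · have := Nat.mul_le_mul_right (t ^ k) (Nat.succ_le_of_lt (h2 a.1))
      have := k2 a.2.2
      rw [pow_succ']; simp only [Nat.succ_mul] at *; omega
    obtain ⟨c, hc⟩ := hz
    push_cast at hc
    rw [show 2 * (k + 1) = 2 * k + 2 by ring, pow_add] at hc
    by_cases e1 : a.1 = b.1
    · rw [e1] at hc
      obtain ⟨w, rfl⟩ : (p : ℤ) ∣ z := hp'.dvd_of_dvd_pow (n := 2)
        ⟨((a.2.1 : ℕ) - (b.2.1 : ℕ) : ℤ) + p * (y a.2.2 - y b.2.2) - p ^ (2 * k) * p * c, by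
          linear_combination -hc⟩
      have e2 : a.2.1 = b.2.1 := by
        have d : (p : ℤ) ∣ ((a.2.1 : ℕ) : ℤ) - (b.2.1 : ℕ) :=
          ⟨p ^ (2 * k) * c + w ^ 2 - (y a.2.2 - y b.2.2), mul_left_cancel₀ hp'.ne_zero (by
            linear_combination hc)⟩
        have := Int.eq_zero_of_abs_lt_dvd d (by
          have := a.2.1.2; have := b.2.1.2; rw [abs_lt]; constructor <;> omega)
        exact Fin.ext (by omega)
      rw [e2] at hc
      have e3 : a.2.2 ≠ b.2.2 := fun e3 => hab (Prod.ext e1 (Prod.ext e2 e3))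
      have := k3 _ _ e3 w ⟨c, mul_left_cancel₀ (pow_ne_zero 2 hp'.ne_zero) (by
        push_cast; linear_combination hc)⟩
      simp only [e1]; omega
    · have := Nat.mul_le_mul_right (t ^ k) (Nat.succ_le_of_lt (h3 _ _ e1 z
        ⟨p ^ (2 * k) * p * c - (((a.2.1 : ℕ) : ℤ) - (b.2.1 : ℕ)) - p * (y a.2.2 - y b.2.2), by
          linear_combination hc⟩))
      have := k2 a.2.2
      simp only [Nat.succ_mul] at *; omega

lemma Good.set {q n H : ℕ} (hq : 0 < q) (h : Good q n H) : ∃ A : Finset ℕ, A.card = n ∧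
    (∀ a ∈ A, 1 ≤ a ∧ a ≤ q * H) ∧ ∀ a ∈ A, ∀ b ∈ A, ∀ m : ℕ, 1 ≤ m → (a : ℤ) - b ≠ (m : ℤ) ^ 2 := by
  classical
  obtain ⟨ι, _, x, φ, h1, h2, h3⟩ := h
  have hq' : (0 : ℤ) < q := by exact_mod_cast hq
  let f : ι → ℕ := fun i => (x i % q).toNat + q * φ i + 1
  have e : ∀ i, (f i : ℤ) = x i % q + q * φ i + 1 := fun i => by
    simp [f, Int.toNat_of_nonneg (Int.emod_nonneg _ hq'.ne')]
  have key : ∀ i j, i ≠ j → ∀ z : ℤ, (f i : ℤ) - f j = z ^ 2 → False := fun i j hij z hz => by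
    have a1 := Int.emod_add_mul_ediv (x i) q
    have a2 := Int.emod_add_mul_ediv (x j) q
    have := h3 i j hij z ⟨x i / q - x j / q - φ i + φ j, by
      rw [e, e] at hz; linear_combination hz - a1 + a2⟩
    have b1 := Int.emod_lt_of_pos (x i) hq'
    have b2 := Int.emod_nonneg (x j) hq'.ne'
    have b3 : (φ i : ℤ) + 1 ≤ φ j := by exact_mod_cast this
    rw [e, e] at hz
    nlinarith [sq_nonneg z, mul_le_mul_of_nonneg_left b3 hq'.le]
  refine ⟨Finset.univ.image f, ?_, fun a ha => ?_, fun a ha b hb m hm hz => ?_⟩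
  · rw [Finset.card_image_of_injective _ fun i j k => by
      by_contra hij; exact key i j hij 0 (by simp [k])]
    exact h1
  · obtain ⟨i, _, rfl⟩ := Finset.mem_image.mp ha
    refine ⟨Nat.le_add_left _ _, ?_⟩
    have b1 := Int.emod_lt_of_pos (x i) hq'
    have b3 : (φ i : ℤ) + 1 ≤ H := by exact_mod_cast h2 i
    have : (f i : ℤ) ≤ q * H := by rw [e]; nlinarith [mul_le_mul_of_nonneg_left b3 hq'.le]
    exact_mod_cast this
  · obtain ⟨i, _, rfl⟩ := Finset.mem_image.mp ha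
    obtain ⟨j, _, rfl⟩ := Finset.mem_image.mp hb
    by_cases hij : i = j
    · subst hij
      have : (0 : ℤ) < m := by exact_mod_cast hm
      nlinarith
    · exact key i j hij m hz

def Q : ℕ := 3 ^ 16 * 7 ^ 10 * 11 ^ 8 * 19 ^ 6 * 23 ^ 6
def n0 : ℕ := 6 ^ 8 * 21 ^ 5 * 44 ^ 4 * 95 ^ 3 * 115 ^ 3

lemma good (K : ℕ) : Good (Q ^ K) (n0 ^ K) (5 * 256 ^ K) := by
  have g3 := (base 3 2 ![0, 2] (by decide)).pow (by norm_num) (8 * K)
  have g7 := (base 7 3 ![0, 3, 6] (by decide)).pow (by norm_num) (5 * K)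
  have g11 := (base 11 4 ![0, 2, 8, 10] (by decide +kernel)).pow (by norm_num) (4 * K)
  have g19 := (base 19 5 ![0, 2, 12, 15, 14] (by decide +kernel)).pow (by norm_num) (3 * K)
  have g23 := (base 23 5 ![0, 5, 10, 15, 20] (by decide +kernel)).pow (by norm_num) (3 * K)
  have c : ∀ {a b : ℕ} (m n : ℕ), a.Coprime b → (a ^ m).Coprime (b ^ n) := fun m n h => h.pow m n
  have := (((g3.prod g7 (c _ _ (by norm_num))).prod g11
    (Nat.Coprime.mul_left (c _ _ (by norm_num)) (c _ _ (by norm_num)))).prod g19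
    (Nat.Coprime.mul_left (Nat.Coprime.mul_left (c _ _ (by norm_num)) (c _ _ (by norm_num)))
      (c _ _ (by norm_num)))).prod g23
    (Nat.Coprime.mul_left (Nat.Coprime.mul_left (Nat.Coprime.mul_left (c _ _ (by norm_num))
      (c _ _ (by norm_num))) (c _ _ (by norm_num))) (c _ _ (by norm_num)))
  simp only [← mul_assoc, pow_mul, ← mul_pow] at this
  have e1 : Q = (3 ^ 2) ^ 8 * (7 ^ 2) ^ 5 * (11 ^ 2) ^ 4 * (19 ^ 2) ^ 3 * (23 ^ 2) ^ 3 := by
    decide +kernel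
  have e2 : n0 = (3 * 2) ^ 8 * (7 * 3) ^ 5 * (11 * 4) ^ 4 * (19 * 5) ^ 3 * (23 * 5) ^ 3 := by
    decide +kernel
  rw [e1, e2]
  refine Good.mono this ?_
  have a0 : (2 ^ 8) ^ K ≤ 256 ^ K := Nat.pow_le_pow_left (by norm_num) K
  have a1 : (3 ^ 5) ^ K ≤ 256 ^ K := Nat.pow_le_pow_left (by norm_num) K
  have a2 : (5 ^ 3) ^ K ≤ 256 ^ K := Nat.pow_le_pow_left (by norm_num) K
  have a3 : (4 ^ 4) ^ K ≤ 256 ^ K := Nat.pow_le_pow_left (by norm_num) K
  linarith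

end Vale.Agent.P042
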