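import Vale.Agent.P042.Main

namespace Vale.Agent.P042

lemma Good.step {q n c T K p t : ℕ} (h : Good (q ^ K) (n ^ K) (c * T ^ K)) (k : ℕ) (g : Good p t t)
    (hp : p.Prime) (hc : q.Coprime p) (hT : t ^ k ≤ T) :
    Good ((q * p ^ (2 * k)) ^ K) ((n * (p * t) ^ k) ^ K) ((c + 1) * T ^ K) := by
  have := h.prod (g.pow hp (k * K)) (hc.pow _ _)
  rw [← mul_assoc, pow_mul p, pow_mul (p * t), pow_mul t, ← mul_pow, ← mul_pow] at this
  refine this.mono ?_
  have := Nat.pow_le_pow_left hT K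
  rw [add_mul, one_mul]; omega

def Q2 : ℕ := 1 * 3 ^ (2 * 298) * 7 ^ (2 * 188) * 11 ^ (2 * 149) * 19 ^ (2 * 128) * 23 ^ (2 * 128) * 31 ^ (2 * 106) * 43 ^ (2 * 106) * 59 ^ (2 * 94) * 71 ^ (2 * 94) * 103 ^ (2 * 86)
def n2 : ℕ := 1 * (3 * 2) ^ 298 * (7 * 3) ^ 188 * (11 * 4) ^ 149 * (19 * 5) ^ 128 * (23 * 5) ^ 128 * (31 * 7) ^ 106 * (43 * 7) ^ 106 * (59 * 9) ^ 94 * (71 * 9) ^ 94 * (103 * 11) ^ 86

lemma good2 (K : ℕ) : Good (Q2 ^ K) (n2 ^ K) (11 * (2 ^ 298) ^ K) := by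
  have g0 : Good (1 ^ K) (1 ^ K) (1 * (2 ^ 298) ^ K) :=
    ⟨Unit, inferInstance, fun _ => 0, fun _ => 0, by simp, fun _ => by positivity, by simp⟩
  have g1 := g0.step 298 (base 3 2 ![0, 2] (by decide +kernel))
    (by norm_num) (by decide +kernel) (by decide +kernel)
  have g2 := g1.step 188 (base 7 3 ![0, 3, 6] (by decide +kernel))
    (by norm_num) (by decide +kernel) (by decide +kernel)
  have g3 := g2.step 149 (base 11 4 ![0, 2, 8, 10] (by decide +kernel))
    (by norm_num) (by decide +kernel) (by decide +kernel)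
  have g4 := g3.step 128 (base 19 5 ![0, 2, 12, 15, 14] (by decide +kernel))
    (by norm_num) (by decide +kernel) (by decide +kernel)
  have g5 := g4.step 128 (base 23 5 ![0, 5, 10, 15, 20] (by decide +kernel))
    (by norm_num) (by decide +kernel) (by decide +kernel)
  have g6 := g5.step 106 (base 31 7 ![0, 3, 24, 15, 6, 27, 30] (by decide +kernel))
    (by norm_num) (by decide +kernel) (by decide +kernel)
  have g7 := g6.step 106 (base 43 7 ![0, 2, 5, 32, 7, 34, 39] (by decide +kernel))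
    (by norm_num) (by decide +kernel) (by decide +kernel)
  have g8 := g7.step 94 (base 59 9 ![0, 2, 40, 58, 54, 42, 33, 39, 13] (by decide +kernel))
    (by norm_num) (by decide +kernel) (by decide +kernel)
  have g9 := g8.step 94 (base 71 9 ![0, 7, 46, 69, 42, 68, 63, 59, 53] (by decide +kernel))
    (by norm_num) (by decide +kernel) (by decide +kernel)
  have g10 := g9.step 86 (base 103 11 ![0, 3, 87, 70, 6, 80, 51, 90, 73, 54, 57] (by decide +kernel))
    (by norm_num) (by decide +kernel) (by decide +kernel)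
  exact g10

lemma pack : ∃ B n Q : ℕ, 1 < B ∧ 0 < Q ∧ B ^ 301 ≤ n ^ 400 ∧
    ∀ K, ∃ H, Good (Q ^ K) (n ^ K) H ∧ Q ^ K * H = 11 * B ^ K := by
  refine ⟨2 ^ 298 * Q2, n2, Q2, by decide +kernel, by decide +kernel, by decide +kernel,
    fun K => ⟨_, good2 K, ?_⟩⟩
  rw [mul_pow, mul_left_comm, mul_comm (Q2 ^ K)]

end Vale.Agent.P042
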