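import Vale.Agent.P042.Main2

namespace Vale.Agent.P042

lemma Good.pow4 {p n H : ℕ} (hp : p ≠ 0) (h : Good (p ^ 2) n H) (k : ℕ) :
    Good (p ^ (2 * k)) (n ^ k) (H ^ k) := by
  induction k with
  | zero => exact ⟨Unit, inferInstance, fun _ => 0, fun _ => 0, by simp, by simp, by simp⟩
  | succ k ih =>
    obtain ⟨ι, _, x, φ, h1, h2, h3⟩ := h
    obtain ⟨κ, _, y, ψ, k1, k2, k3⟩ := ih
    have hp' : (p : ℤ) ≠ 0 := by exact_mod_cast hp
    refine ⟨ι × κ, inferInstance, fun a => x a.1 + p ^ 2 * y a.2,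
      fun a => φ a.1 * H ^ k + ψ a.2, by simp [h1, k1]; ring, fun a => ?_, fun a b hab z hz => ?_⟩
    · have := Nat.mul_le_mul_right (H ^ k) (Nat.succ_le_of_lt (h2 a.1))
      have := k2 a.2
      rw [pow_succ']; simp only [Nat.succ_mul] at *; omega
    obtain ⟨c, hc⟩ := hz
    push_cast at hc
    rw [show 2 * (k + 1) = 2 * k + 2 by ring, pow_add] at hc
    by_cases e1 : a.1 = b.1
    · rw [e1] at hc
      obtain ⟨w, rfl⟩ : (p : ℤ) ∣ z := (Int.pow_dvd_pow_iff two_ne_zero).mp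
        ⟨(y a.2 - y b.2) - p ^ (2 * k) * c, by linear_combination -hc⟩
      have e3 : a.2 ≠ b.2 := fun e3 => hab (Prod.ext e1 e3)
      have := k3 _ _ e3 w ⟨c, mul_left_cancel₀ (pow_ne_zero 2 hp') (by
        push_cast; linear_combination hc)⟩
      simp only [e1]; omega
    · have := Nat.mul_le_mul_right (H ^ k) (Nat.succ_le_of_lt (h3 _ _ e1 z
        ⟨p ^ (2 * k) * c - (y a.2 - y b.2), by push_cast; linear_combination hc⟩))
      have := k2 a.2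
      simp only [Nat.succ_mul] at *; omega

lemma Good.step4 {q n c T K p t m : ℕ} (h : Good (q ^ K) (n ^ K) (c * T ^ K)) (k : ℕ)
    (g : Good (p ^ 2) m t) (hp : p ≠ 0) (hc : q.Coprime p) (hT : t ^ k ≤ T) :
    Good ((q * p ^ (2 * k)) ^ K) ((n * m ^ k) ^ K) ((c + 1) * T ^ K) := by
  have := h.prod (g.pow4 hp (k * K)) (hc.pow _ _)
  rw [← mul_assoc, pow_mul p, pow_mul m, pow_mul t, ← mul_pow, ← mul_pow] at this
  refine this.mono ?_
  have := Nat.pow_le_pow_left hT K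
  rw [add_mul, one_mul]; omega

lemma base4 (q n H : ℕ) [NeZero q] (x φ : Fin n → ℕ) (h0 : ∀ i, φ i < H)
    (h : ∀ i j, i ≠ j → ∀ z : ZMod q, (x i : ZMod q) - x j - z ^ 2 = 0 → φ i < φ j) : Good q n H :=
  ⟨Fin n, inferInstance, fun i => x i, φ, by simp, h0, fun i j e z hz =>
    h i j e z (by have := (ZMod.intCast_zmod_eq_zero_iff_dvd _ q).mpr hz; push_cast at this; exact this)⟩

lemma good4 (K : ℕ) :
    Good ((Q2 * 4 ^ (2 * 115)) ^ K) ((n2 * 10 ^ 115) ^ K) (12 * (2 ^ 298) ^ K) :=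
  (good2 K).step4 115 (p := 4) (base4 16 10 6 ![0, 1, 2, 3, 5, 6, 8, 10, 11, 13]
    ![5, 4, 3, 0, 3, 2, 5, 1, 0, 5] (by decide +kernel) (by decide +kernel)) (by norm_num)
    (by decide +kernel) (by decide +kernel)

lemma pack4 : ∃ B n Q : ℕ, 1 < B ∧ 0 < Q ∧ B ^ 1511 ≤ n ^ 2000 ∧
    ∀ K, ∃ H, Good (Q ^ K) (n ^ K) H ∧ Q ^ K * H = 12 * B ^ K := by
  refine ⟨2 ^ 298 * (Q2 * 4 ^ (2 * 115)), n2 * 10 ^ 115, Q2 * 4 ^ (2 * 115), by decide +kernel,
    by decide +kernel, by decide +kernel, fun K => ⟨_, good4 K, ?_⟩⟩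
  rw [mul_pow (2 ^ 298), mul_left_comm, mul_comm (_ ^ K)]

end Vale.Agent.P042
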